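import Crest.Agent.N325.M0.Mon

/-!
# Row 325: list library in the monad `R` (helper12)

Every program has one specification `Sp g prog fun r t => r = … ∧ t ≤ …`.
-/

set_option autoImplicit false

namespace Crest.Agent.N325

variable {α β σ : Type} {g : Gl}

/-- a fold with a pure step -/
def foldP (f : α → σ → σ) (l : List α) (s : σ) : R σ := foldL (fun a s => pure (f a s)) l s

theorem sp_foldP (f : α → σ → σ) (l : List α) (s : σ) :
    Sp g (foldP f l s) fun r t => r = l.foldl (fun s a => f a s) s ∧ t = l.length + 1 := by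
  induction l generalizing s with
  | nil => exact ⟨Nat.zero_le _, rfl, rfl⟩
  | cons a l ih =>
    refine ⟨Nat.zero_le _, ?_⟩
    refine (ih (f a s)).mono fun r t h => ⟨h.1, ?_⟩
    rw [h.2, List.length_cons]; omega

/-- a counted loop with a pure step -/
def forP (f : ℕ → σ → σ) (n i : ℕ) (s : σ) : R σ := forN (fun j s => pure (f j s)) n i s

theorem sp_forP (f : ℕ → σ → σ) (n i : ℕ) (s : σ) :
    Sp g (forP f n i s) fun r t =>
      r = (List.range' i n).foldl (fun s j => f j s) s ∧ t = n + 1 := by
  induction n generalizing i s with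
  | zero => exact ⟨Nat.zero_le _, rfl, rfl⟩
  | succ n ih =>
    refine ⟨Nat.zero_le _, ?_⟩
    refine (ih (i + 1) (f i s)).mono fun r t h => ⟨h.1, ?_⟩
    rw [h.2]; omega

/-- `l.reverse ++ m` -/
def revAppL (l m : List α) : R (List α) := foldP (fun a s => a :: s) l m

theorem sp_revAppL (l m : List α) :
    Sp g (revAppL l m) fun r t => r = l.reverse ++ m ∧ t = l.length + 1 :=
  (sp_foldP _ l m).mono fun r t h => ⟨by rw [h.1]; simp, h.2⟩

/-- reverse -/
def revL (l : List α) : R (List α) := revAppL l []

theorem sp_revL (l : List α) : Sp g (revL l) fun r t => r = l.reverse ∧ t = l.length + 1 :=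
  (sp_revAppL l []).mono fun r t h => ⟨by rw [h.1]; simp, h.2⟩

/-- append -/
def appL (l m : List α) : R (List α) := revL l >>= fun r => revAppL r m

theorem sp_appL (l m : List α) :
    Sp g (appL l m) fun r t => r = l ++ m ∧ t = 2 * l.length + 2 :=
  (sp_revL l).bind fun r t h => (sp_revAppL r m).mono fun r' t' h' =>
    ⟨by rw [h'.1, h.1]; simp, by rw [h'.2, h.2, h.1, List.length_reverse]; omega⟩

/-- map with a pure function -/
def mapP (f : α → β) (l : List α) : R (List β) := foldP (fun a s => f a :: s) l [] >>= revL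

theorem foldl_cons_map (f : α → β) (l : List α) (s : List β) :
    l.foldl (fun s a => f a :: s) s = (l.map f).reverse ++ s := by
  induction l generalizing s with
  | nil => rfl
  | cons a l ih => simp [ih]

theorem sp_mapP (f : α → β) (l : List α) :
    Sp g (mapP f l) fun r t => r = l.map f ∧ t = 2 * l.length + 2 :=
  (sp_foldP _ l []).bind fun r t h => (sp_revL r).mono fun r' t' h' => by
    rw [foldl_cons_map] at h
    exact ⟨by rw [h'.1, h.1]; simp, by rw [h'.2, h.2, h.1]; simp; omega⟩

/-- filter with a pure test -/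
def filterP (p : α → Bool) (l : List α) : R (List α) :=
  foldP (fun a s => if p a then a :: s else s) l [] >>= revL

theorem foldl_cons_filter (p : α → Bool) (l s : List α) :
    l.foldl (fun s a => if p a then a :: s else s) s = (l.filter p).reverse ++ s := by
  induction l generalizing s with
  | nil => rfl
  | cons a l ih => by_cases h : p a <;> simp [ih, h]

theorem sp_filterP (p : α → Bool) (l : List α) :
    Sp g (filterP p l) fun r t => r = l.filter p ∧ t ≤ 2 * l.length + 2 :=
  (sp_foldP _ l []).bind fun r t h => (sp_revL r).mono fun r' t' h' => by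
    rw [foldl_cons_filter] at h
    have := List.length_filter_le p l
    exact ⟨by rw [h'.1, h.1]; simp, by rw [h'.2, h.2, h.1]; simp; omega⟩

/-- filter and map with a pure function -/
def filterMapP (f : α → Option β) (l : List α) : R (List β) :=
  foldP (fun a s => Option.casesOn (f a) s fun b => b :: s) l [] >>= revL

theorem foldl_cons_filterMap (f : α → Option β) (l : List α) (s : List β) :
    l.foldl (fun s a => (Option.casesOn (f a) s fun b => b :: s : List β)) s
      = (l.filterMap f).reverse ++ s := by
  induction l generalizing s with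
  | nil => rfl
  | cons a l ih => cases h : f a <;> simp [ih, h]

theorem sp_filterMapP (f : α → Option β) (l : List α) :
    Sp g (filterMapP f l) fun r t => r = l.filterMap f ∧ t ≤ 2 * l.length + 2 :=
  (sp_foldP _ l []).bind fun r t h => (sp_revL r).mono fun r' t' h' => by
    rw [foldl_cons_filterMap] at h
    have := List.length_filterMap_le f l
    exact ⟨by rw [h'.1, h.1]; simp, by rw [h'.2, h.2, h.1]; simp; omega⟩

/-- length -/
def lenL (l : List α) : R ℕ := foldP (fun _ s => s + 1) l 0

theorem foldl_succ (l : List α) (s : ℕ) : l.foldl (fun s _ => s + 1) s = s + l.length := by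
  induction l generalizing s with
  | nil => rfl
  | cons a l ih => simp [ih]; omega

theorem sp_lenL (l : List α) : Sp g (lenL l) fun r t => r = l.length ∧ t = l.length + 1 :=
  (sp_foldP _ l 0).mono fun r t h => ⟨by rw [h.1, foldl_succ]; simp, h.2⟩

/-- counting -/
def countPL (p : α → Bool) (l : List α) : R ℕ := foldP (fun a s => if p a then s + 1 else s) l 0

theorem foldl_countP (p : α → Bool) (l : List α) (s : ℕ) :
    l.foldl (fun s a => if p a then s + 1 else s) s = s + l.countP p := by
  induction l generalizing s with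
  | nil => rfl
  | cons a l ih => by_cases h : p a <;> simp [ih, h]; omega

theorem sp_countPL (p : α → Bool) (l : List α) :
    Sp g (countPL p l) fun r t => r = l.countP p ∧ t = l.length + 1 :=
  (sp_foldP _ l 0).mono fun r t h => ⟨by rw [h.1, foldl_countP]; simp, h.2⟩

/-- existence -/
def anyP (p : α → Bool) (l : List α) : R Bool := foldP (fun a s => if p a then true else s) l false

theorem foldl_any (p : α → Bool) (l : List α) (s : Bool) :
    l.foldl (fun s a => if p a then true else s) s = (s || l.any p) := by
  induction l generalizing s with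
  | nil => simp
  | cons a l ih => by_cases h : p a <;> simp [-Bool.if_true_left, ih, h]

theorem sp_anyP (p : α → Bool) (l : List α) :
    Sp g (anyP p l) fun r t => r = l.any p ∧ t = l.length + 1 :=
  (sp_foldP _ l false).mono fun r t h => ⟨by rw [h.1, foldl_any]; simp, h.2⟩

/-- the sum of `f` over a list (guarded) -/
def sumL (f : α → ℕ) (l : List α) : R ℕ := foldL (fun a s => nat (s + f a)) l 0

theorem sp_sumL (f : α → ℕ) (l : List α) (h : (l.map f).sum ≤ g.X) :
    Sp g (sumL f l) fun r t => r = (l.map f).sum ∧ t ≤ l.length + 1 :=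
  (sp_foldL' (fun l' s => s + (l'.map f).sum = (l.map f).sum) (fun _ => 0)
    (fun a l' s k => by
      rw [List.map_cons, List.sum_cons] at k
      exact sp_nat.2 ⟨by omega, by omega, le_rfl⟩) (l := l) (s := 0) (by simp)).mono
    fun r t k => ⟨by simpa using k.1, by simpa using k.2⟩

/-- `List.range' i n` -/
def rangeL (n i : ℕ) : R (List ℕ) := forP (fun j s => j :: s) n i [] >>= revL

theorem sp_rangeL (n i : ℕ) :
    Sp g (rangeL n i) fun r t => r = List.range' i n ∧ t = 2 * n + 2 :=
  (sp_forP _ n i []).bind fun r t h => (sp_revL r).mono fun r' t' h' =>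
    ⟨by rw [h'.1, h.1]; simp, by rw [h'.2, h.2, h.1]; simp; omega⟩

theorem sp_rangeL_zero (n : ℕ) :
    Sp g (rangeL n 0) fun r t => r = List.range n ∧ t = 2 * n + 2 :=
  (sp_rangeL n 0).mono fun _ _ h => ⟨by rw [h.1, List.range_eq_range'], h.2⟩

/-- `List.replicate n a ++ m` -/
def replL (n : ℕ) (a : α) (m : List α) : R (List α) := forP (fun _ s => a :: s) n 0 m

theorem foldl_repl (l : List β) (a : α) (m : List α) :
    l.foldl (fun s _ => a :: s) m = List.replicate l.length a ++ m := by
  induction l generalizing m with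
  | nil => rfl
  | cons b l ih => simp [ih, List.replicate_succ']

theorem sp_replL (n : ℕ) (a : α) (m : List α) :
    Sp g (replL n a m) fun r t => r = List.replicate n a ++ m ∧ t = n + 1 :=
  (sp_forP _ n 0 m).mono fun r t h => ⟨by rw [h.1, foldl_repl]; simp, h.2⟩

/-- move the head of the second list to the first list -/
def shiftHd (s : List α × List α) : List α × List α :=
  List.casesOn s.2 s fun a l => (a :: s.1, l)

theorem foldl_shiftHd (k : List β) (x l : List α) :
    k.foldl (fun s _ => shiftHd s) (x, l) = ((l.take k.length).reverse ++ x, l.drop k.length) := by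
  induction k generalizing x l with
  | nil => simp
  | cons b k ih =>
    cases l with
    | nil => exact (ih x []).trans (by simp)
    | cons a l => exact (ih (a :: x) l).trans (by simp)

/-- `(l.take n, l.drop n)` -/
def splitL (n : ℕ) (l : List α) : R (List α × List α) :=
  forP (fun _ s => shiftHd s) n 0 ([], l) >>= fun s => revL s.1 >>= fun x => pure (x, s.2)

theorem sp_splitL (n : ℕ) (l : List α) :
    Sp g (splitL n l) fun r t => r = (l.take n, l.drop n) ∧ t ≤ 2 * n + 2 :=
  (sp_forP _ n 0 _).bind fun r t h => (sp_revL r.1).bind fun r' t' h' => by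
    rw [foldl_shiftHd] at h
    refine ⟨by rw [h'.1, h.1]; simp, ?_⟩
    rw [h'.2, h.2, h.1]; simp; omega

/-- `l.take n` -/
def takeL (n : ℕ) (l : List α) : R (List α) := splitL n l >>= fun s => pure s.1

theorem sp_takeL (n : ℕ) (l : List α) :
    Sp g (takeL n l) fun r t => r = l.take n ∧ t ≤ 2 * n + 2 :=
  (sp_splitL n l).bind fun r t h => ⟨by rw [h.1], h.2⟩

/-- `l.drop n` -/
def dropL (n : ℕ) (l : List α) : R (List α) :=
  forP (fun _ s => List.casesOn s s fun _ l => l) n 0 l

theorem foldl_tail (k : List β) (l : List α) :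
    k.foldl (fun s _ => (List.casesOn s s fun _ l => l : List α)) l = l.drop k.length := by
  induction k generalizing l with
  | nil => simp
  | cons b k ih => cases l <;> simp [ih]

theorem sp_dropL (n : ℕ) (l : List α) :
    Sp g (dropL n l) fun r t => r = l.drop n ∧ t = n + 1 :=
  (sp_forP _ n 0 l).mono fun r t h => ⟨by rw [h.1, foldl_tail]; simp, h.2⟩

/-- one step of `zipL` -/
def zipHd (a : α) (s : List β × List (α × β)) : List β × List (α × β) :=
  List.casesOn s.1 s fun b m => (m, (a, b) :: s.2)

theorem foldl_zipHd (l : List α) (m : List β) (x : List (α × β)) :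
    (l.foldl (fun s a => zipHd a s) (m, x)).2 = (l.zip m).reverse ++ x := by
  induction l generalizing m x with
  | nil => simp
  | cons a l ih =>
    cases m with
    | nil => exact (ih [] x).trans (by simp)
    | cons b m => exact (ih m ((a, b) :: x)).trans (by simp)

/-- zip -/
def zipL (l : List α) (m : List β) : R (List (α × β)) :=
  foldP zipHd l (m, []) >>= fun s => revL s.2

theorem sp_zipL (l : List α) (m : List β) :
    Sp g (zipL l m) fun r t => r = l.zip m ∧ t ≤ 2 * l.length + 2 :=
  (sp_foldP _ l _).bind fun r t h => (sp_revL r.2).mono fun r' t' h' => by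
    have e : r.2 = (l.zip m).reverse := by rw [h.1, foldl_zipHd]; simp
    refine ⟨by rw [h'.1, e]; simp, ?_⟩
    rw [h'.2, h.2, e]; simp; omega

/-- map with a program -/
def mapL (f : α → R β) (l : List α) : R (List β) :=
  foldL (fun a s => f a >>= fun b => pure (b :: s)) l [] >>= revL

theorem sp_mapL {f : α → R β} {l : List α} (P : α → β → Prop) (c : α → ℕ)
    (h : ∀ a ∈ l, Sp g (f a) fun b t => P a b ∧ t ≤ c a) :
    Sp g (mapL f l) fun r t => List.Forall₂ P l r ∧ t ≤ (l.map c).sum + 2 * l.length + 2 := by
  refine (sp_foldL' (fun l' s => ∃ l0, l0 ++ l' = l ∧ List.Forall₂ P l0 s.reverse) c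
    (fun a l' s ⟨l0, e, k⟩ => (h a (by simp [← e])).bind fun b t k' =>
      ⟨⟨l0 ++ [a], by simp [← e], by
        rw [List.reverse_cons]; exact List.rel_append k (.cons k'.1 .nil)⟩, k'.2⟩)
    (l := l) (s := []) ⟨[], rfl, .nil⟩).bind
    fun r t k => (sp_revL r).mono fun r' t' k' => ?_
  obtain ⟨⟨l0, e, k1⟩, k2⟩ := k
  rw [List.append_nil] at e
  subst e
  have := k1.length_eq
  simp only [List.sum_map_add, List.map_const', List.sum_replicate, smul_eq_mul,
    List.length_reverse] at k2 this
  exact ⟨by rw [k'.1]; exact k1, by omega⟩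

theorem sp_mapL' {f : α → R β} {l : List α} (F : α → β) (c : α → ℕ)
    (h : ∀ a ∈ l, Sp g (f a) fun b t => b = F a ∧ t ≤ c a) :
    Sp g (mapL f l) fun r t => r = l.map F ∧ t ≤ (l.map c).sum + 2 * l.length + 2 :=
  (sp_mapL (fun a b => b = F a) c h).mono fun r t k => ⟨by
    have := k.1
    clear k h
    induction this with
    | nil => rfl
    | cons h _ ih => rw [h, ih]; rfl, k.2⟩

/-- concatenation of stored lists -/
def flatMapP (f : α → List β) (l : List α) : R (List β) :=
  foldL (fun a s => revAppL (f a) s) l [] >>= revL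

theorem sp_flatMapP (f : α → List β) (l : List α) :
    Sp g (flatMapP f l) fun r t =>
      r = l.flatMap f ∧ t ≤ 2 * (l.flatMap f).length + 2 * l.length + 2 := by
  refine (sp_foldL' (fun l' s => s.reverse ++ l'.flatMap f = l.flatMap f)
    (fun a => (f a).length + 1)
    (fun a l' s k => (sp_revAppL (f a) s).mono fun r t k' => ⟨by rw [k'.1, ← k]; simp, k'.2.le⟩)
    (l := l) (s := []) rfl).bind fun r t k => (sp_revL r).mono fun r' t' k' => ?_
  obtain ⟨k1, k2⟩ := k
  rw [List.flatMap_nil, List.append_nil] at k1
  have := congrArg List.length k1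
  simp only [List.sum_map_add, List.map_const', List.sum_replicate, smul_eq_mul,
    List.length_reverse, List.length_flatMap] at k2 this ⊢
  exact ⟨by rw [k'.1, k1], by omega⟩

/-- concatenation of computed lists -/
def flatMapL (f : α → R (List β)) (l : List α) : R (List β) :=
  foldL (fun a s => f a >>= fun x => revAppL x s) l [] >>= revL

theorem sp_flatMapL {f : α → R (List β)} {l : List α} (F : α → List β) (c : α → ℕ)
    (h : ∀ a ∈ l, Sp g (f a) fun b t => b = F a ∧ t ≤ c a) :
    Sp g (flatMapL f l) fun r t =>
      r = l.flatMap F ∧ t ≤ (l.map c).sum + 2 * (l.flatMap F).length + 2 * l.length + 2 := by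
  refine (sp_foldL' (fun l' s => (∀ a ∈ l', a ∈ l) ∧ s.reverse ++ l'.flatMap F = l.flatMap F)
    (fun a => c a + (F a).length + 1)
    (fun a l' s k => (h a (k.1 a List.mem_cons_self)).bind fun x u k0 =>
      (sp_revAppL x s).mono fun r t k' =>
        ⟨⟨fun b hb => k.1 b (List.mem_cons_of_mem _ hb), by rw [k'.1, ← k.2, k0.1]; simp⟩,
          by rw [k'.2, k0.1]; have := k0.2; omega⟩)
    (l := l) (s := []) ⟨fun _ h => h, rfl⟩).bind fun r t k => (sp_revL r).mono fun r' t' k' => ?_
  obtain ⟨⟨-, k1⟩, k2⟩ := k
  rw [List.flatMap_nil, List.append_nil] at k1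
  have := congrArg List.length k1
  simp only [List.sum_map_add, List.map_const', List.sum_replicate, smul_eq_mul,
    List.length_reverse, List.length_flatMap] at k2 this ⊢
  exact ⟨by rw [k'.1, k1], by omega⟩

/-- write a list into an array from the index `i` on -/
def arrOfL (l : List α) (i : ℕ) (a : Arr α) : R (Arr α) :=
  foldP (fun x (s : ℕ × Arr α) => (s.1 + 1, s.2.set s.1 x)) l (i, a) >>= fun s => pure s.2

theorem foldl_arrOf (l : List α) (i : ℕ) (a : Arr α) (j : ℕ) :
    (l.foldl (fun (s : ℕ × Arr α) x => (s.1 + 1, s.2.set s.1 x)) (i, a)).2.get j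
      = if i ≤ j then l.getD (j - i) (a.get j) else a.get j := by
  induction l generalizing i a with
  | nil => simp
  | cons x l ih =>
    rw [List.foldl_cons, ih, Arr.get_set]
    rcases lt_trichotomy j i with h | rfl | h
    · rw [if_neg (by omega), if_neg (by omega), if_neg (by omega)]
    · simp
    · rw [if_pos (by omega), if_neg (by omega), if_pos h.le,
        show j - i = j - (i + 1) + 1 by omega, List.getD_cons_succ]

theorem sp_arrOfL (l : List α) (i : ℕ) (a : Arr α) :
    Sp g (arrOfL l i a) fun r t =>
      (∀ j, r.get j = if i ≤ j then l.getD (j - i) (a.get j) else a.get j) ∧ t = l.length + 1 :=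
  (sp_foldP _ l _).bind fun r t h => ⟨fun j => by rw [h.1, foldl_arrOf], h.2⟩

theorem sp_arrOfL_cst (l : List α) (d : α) :
    Sp g (arrOfL l 0 (Arr.cst d)) fun r t => (r.get = fun j => l.getD j d) ∧ t = l.length + 1 :=
  (sp_arrOfL l 0 _).mono fun r t h => ⟨funext fun j => by simpa using h.1 j, h.2⟩

/-- tabulate a pure function on `[0, n)` -/
def tabP (f : ℕ → α) (n : ℕ) (a : Arr α) : R (Arr α) := forP (fun j s => s.set j (f j)) n 0 a

theorem foldl_tab (f : ℕ → α) (l : List ℕ) (a : Arr α) (j : ℕ) :
    (l.foldl (fun (s : Arr α) i => s.set i (f i)) a).get j = if j ∈ l then f j else a.get j := by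
  induction l generalizing a with
  | nil => simp
  | cons x l ih =>
    rw [List.foldl_cons, ih, Arr.get_set]
    by_cases h1 : j ∈ l <;> by_cases h2 : j = x <;> simp [h1, h2]

theorem sp_tabP (f : ℕ → α) (n : ℕ) (a : Arr α) :
    Sp g (tabP f n a) fun r t => (∀ j, r.get j = if j < n then f j else a.get j) ∧ t = n + 1 :=
  (sp_forP _ n 0 a).mono fun r t h => ⟨fun j => by rw [h.1, foldl_tab]; simp, h.2⟩

/-- write `f i` at the listed indices -/
def setAllP (f : ℕ → α) (l : List ℕ) (a : Arr α) : R (Arr α) := foldP (fun j s => s.set j (f j)) l a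

theorem sp_setAllP (f : ℕ → α) (l : List ℕ) (a : Arr α) :
    Sp g (setAllP f l a) fun r t =>
      (∀ j, r.get j = if j ∈ l then f j else a.get j) ∧ t = l.length + 1 :=
  (sp_foldP _ l a).mono fun r t h => ⟨fun j => by rw [h.1, foldl_tab], h.2⟩

/-- distribute a list into buckets by a key -/
def bucketP (key : α → ℕ) (l : List α) (a : Arr (List α)) : R (Arr (List α)) :=
  foldP (fun x s => s.set (key x) (x :: s.get (key x))) l a

theorem foldl_bucket (key : α → ℕ) (l : List α) (a : Arr (List α)) (j : ℕ) :
    (l.foldl (fun (s : Arr (List α)) x => s.set (key x) (x :: s.get (key x))) a).get j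
      = (l.filter fun x => key x = j).reverse ++ a.get j := by
  induction l generalizing a with
  | nil => simp
  | cons x l ih =>
    rw [List.foldl_cons, ih, Arr.get_set]
    by_cases h : key x = j
    · simp [h]
    · simp [h, Ne.symm h]

theorem sp_bucketP (key : α → ℕ) (l : List α) (a : Arr (List α)) :
    Sp g (bucketP key l a) fun r t =>
      (∀ j, r.get j = (l.filter fun x => key x = j).reverse ++ a.get j) ∧ t = l.length + 1 :=
  (sp_foldP _ l a).mono fun r t h => ⟨fun j => by rw [h.1, foldl_bucket], h.2⟩

end Crest.Agent.N325
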