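import Crest.Agent.N325.M0.Tac
import Crest.Agent.N325.Lst.SortR

/-!
# Row 325: the list library is implementable (helper12)
-/

set_option autoImplicit false

namespace Crest.Agent.N325

variable {α β γ δ : Type} [Rp α] [Rp β] [Rp γ] [Rp δ]

@[fun_prop] theorem Impl.foldP {f : α → β → γ → γ} {l : α → List β} {s : α → γ}
    (hf : Pu true fun p : α × β × γ => f p.1 p.2.1 p.2.2) (hl : Pu true l) (hs : Pu true s) :
    Impl fun a => N325.foldP (f a) (l a) (s a) := by
  unfold N325.foldP; impl

@[fun_prop] theorem Impl.forP {f : α → ℕ → γ → γ} {n i : α → ℕ} {s : α → γ}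
    (hf : Pu true fun p : α × ℕ × γ => f p.1 p.2.1 p.2.2) (hn : Pu true n) (hi : Pu true i)
    (hs : Pu true s) : Impl fun a => N325.forP (f a) (n a) (i a) (s a) := by
  unfold N325.forP; impl

@[fun_prop] theorem Impl.revAppL {l m : α → List β} (hl : Pu true l) (hm : Pu true m) :
    Impl fun a => N325.revAppL (l a) (m a) := by
  unfold N325.revAppL; impl

@[fun_prop] theorem Impl.revL {l : α → List β} (hl : Pu true l) :
    Impl fun a => N325.revL (l a) := by
  unfold N325.revL; impl

@[fun_prop] theorem Impl.appL {l m : α → List β} (hl : Pu true l) (hm : Pu true m) :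
    Impl fun a => N325.appL (l a) (m a) := by
  unfold N325.appL; impl

@[fun_prop] theorem Impl.mapP {f : α → β → γ} {l : α → List β}
    (hf : Pu true fun p : α × β => f p.1 p.2) (hl : Pu true l) :
    Impl fun a => N325.mapP (f a) (l a) := by
  unfold N325.mapP; impl

@[fun_prop] theorem Impl.filterP {f : α → β → Bool} {l : α → List β}
    (hf : Pu false fun p : α × β => f p.1 p.2) (hl : Pu true l) :
    Impl fun a => N325.filterP (f a) (l a) := by
  unfold N325.filterP; impl

@[fun_prop] theorem Impl.filterMapP {f : α → β → Option γ} {l : α → List β}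
    (hf : Pu true fun p : α × β => f p.1 p.2) (hl : Pu true l) :
    Impl fun a => N325.filterMapP (f a) (l a) := by
  unfold N325.filterMapP; impl

@[fun_prop] theorem Impl.lenL {l : α → List β} (hl : Pu true l) :
    Impl fun a => N325.lenL (l a) := by
  unfold N325.lenL; impl

@[fun_prop] theorem Impl.countPL {f : α → β → Bool} {l : α → List β}
    (hf : Pu false fun p : α × β => f p.1 p.2) (hl : Pu true l) :
    Impl fun a => N325.countPL (f a) (l a) := by
  unfold N325.countPL; impl

@[fun_prop] theorem Impl.anyP {f : α → β → Bool} {l : α → List β}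
    (hf : Pu false fun p : α × β => f p.1 p.2) (hl : Pu true l) :
    Impl fun a => N325.anyP (f a) (l a) := by
  unfold N325.anyP; impl

@[fun_prop] theorem Impl.sumL {f : α → β → ℕ} {l : α → List β}
    (hf : Pu false fun p : α × β => f p.1 p.2) (hl : Pu true l) :
    Impl fun a => N325.sumL (f a) (l a) := by
  unfold N325.sumL; impl

@[fun_prop] theorem Impl.rangeL {n i : α → ℕ} (hn : Pu true n) (hi : Pu true i) :
    Impl fun a => N325.rangeL (n a) (i a) := by
  unfold N325.rangeL; impl

@[fun_prop] theorem Impl.replL {n : α → ℕ} {x : α → β} {m : α → List β} (hn : Pu true n)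
    (hx : Pu true x) (hm : Pu true m) : Impl fun a => N325.replL (n a) (x a) (m a) := by
  unfold N325.replL; impl

@[fun_prop] theorem Pu.shiftHd {s : α → List β × List β} (hs : Pu true s) :
    Pu true fun a => N325.shiftHd (s a) := by
  unfold N325.shiftHd; impl

@[fun_prop] theorem Impl.splitL {n : α → ℕ} {l : α → List β} (hn : Pu true n) (hl : Pu true l) :
    Impl fun a => N325.splitL (n a) (l a) := by
  unfold N325.splitL; impl

@[fun_prop] theorem Impl.takeL {n : α → ℕ} {l : α → List β} (hn : Pu true n) (hl : Pu true l) :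
    Impl fun a => N325.takeL (n a) (l a) := by
  unfold N325.takeL; impl

@[fun_prop] theorem Impl.dropL {n : α → ℕ} {l : α → List β} (hn : Pu true n) (hl : Pu true l) :
    Impl fun a => N325.dropL (n a) (l a) := by
  unfold N325.dropL; impl

@[fun_prop] theorem Pu.zipHd {x : α → β} {s : α → List γ × List (β × γ)} (hx : Pu true x)
    (hs : Pu true s) : Pu true fun a => N325.zipHd (x a) (s a) := by
  unfold N325.zipHd; impl

@[fun_prop] theorem Impl.zipL {l : α → List β} {m : α → List γ} (hl : Pu true l)
    (hm : Pu true m) : Impl fun a => N325.zipL (l a) (m a) := by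
  unfold N325.zipL; impl

@[fun_prop] theorem Impl.mapL {f : α → β → R γ} {l : α → List β}
    (hf : Impl fun p : α × β => f p.1 p.2) (hl : Pu true l) :
    Impl fun a => N325.mapL (f a) (l a) := by
  unfold N325.mapL; impl

@[fun_prop] theorem Impl.flatMapP {f : α → β → List γ} {l : α → List β}
    (hf : Pu true fun p : α × β => f p.1 p.2) (hl : Pu true l) :
    Impl fun a => N325.flatMapP (f a) (l a) := by
  unfold N325.flatMapP; impl

@[fun_prop] theorem Impl.flatMapL {f : α → β → R (List γ)} {l : α → List β}
    (hf : Impl fun p : α × β => f p.1 p.2) (hl : Pu true l) :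
    Impl fun a => N325.flatMapL (f a) (l a) := by
  unfold N325.flatMapL; impl

@[fun_prop] theorem Impl.arrOfL {l : α → List β} {i : α → ℕ} {x : α → Arr β} (hl : Pu true l)
    (hi : Pu true i) (hx : Pu true x) : Impl fun a => N325.arrOfL (l a) (i a) (x a) := by
  unfold N325.arrOfL; impl

@[fun_prop] theorem Impl.tabP {f : α → ℕ → β} {n : α → ℕ} {x : α → Arr β}
    (hf : Pu true fun p : α × ℕ => f p.1 p.2) (hn : Pu true n) (hx : Pu true x) :
    Impl fun a => N325.tabP (f a) (n a) (x a) := by
  unfold N325.tabP; impl

@[fun_prop] theorem Impl.setAllP {f : α → ℕ → β} {l : α → List ℕ} {x : α → Arr β}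
    (hf : Pu true fun p : α × ℕ => f p.1 p.2) (hl : Pu true l) (hx : Pu true x) :
    Impl fun a => N325.setAllP (f a) (l a) (x a) := by
  unfold N325.setAllP; impl

@[fun_prop] theorem Impl.bucketP {f : α → β → ℕ} {l : α → List β} {x : α → Arr (List β)}
    (hf : Pu false fun p : α × β => f p.1 p.2) (hl : Pu true l) (hx : Pu true x) :
    Impl fun a => N325.bucketP (f a) (l a) (x a) := by
  unfold N325.bucketP; impl

@[fun_prop] theorem Impl.radixPass {f : α → β → ℕ} {s : α → ℕ × List β}
    (hf : Pu false fun p : α × β => f p.1 p.2) (hs : Pu true s) :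
    Impl fun a => N325.radixPass (f a) (s a) := by
  unfold N325.radixPass; impl

@[fun_prop] theorem Impl.sortL {f : α → β → ℕ} {M : α → ℕ} {l : α → List β}
    (hf : Pu false fun p : α × β => f p.1 p.2) (hM : Pu true M) (hl : Pu true l) :
    Impl fun a => N325.sortL (f a) (M a) (l a) := by
  unfold N325.sortL; impl

end Crest.Agent.N325
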